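import Vale.Agent.Lib.P074.Third.Defs

/-!
# P074: discretization of a coupling (`ApproxStatement`)

Given a coupling `π` of two probability measures carried by a compact set `Y`, both marginals are
approximated by discrete measures with a common index set, common masses and injective site
families, at controlled transport cost.
-/

namespace Vale.Agent.Lib.P074

open MeasureTheory ENNReal

namespace Approx

variable {d : ℕ}

/-- A finite `η`-net of a nonempty compact set, given as an initial segment of a sequence of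
points of the set. -/
lemma exists_net {Y : Set (E d)} (hY : IsCompact Y) (hne : Y.Nonempty) {η : ℝ} (hη : 0 < η) :
    ∃ (e : ℕ → E d) (N : ℕ), (∀ k, e k ∈ Y) ∧ ∀ z ∈ Y, ∃ k ≤ N, dist (e k) z < η := by
  obtain ⟨t, htY, htfin, hcov⟩ := finite_cover_balls_of_compact hY hη
  have htne : t.Nonempty := by
    obtain ⟨z, hz⟩ := hne
    have := hcov hz
    simp only [Set.mem_iUnion] at this
    obtain ⟨x, hx, -⟩ := this
    exact ⟨x, hx⟩
  obtain ⟨f, hf⟩ := htfin.countable.exists_eq_range htne
  have hidx : ∀ x ∈ t, ∃ k, f k = x := by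
    intro x hx
    rw [hf] at hx
    exact hx
  choose! kf hkf using hidx
  refine ⟨f, htfin.toFinset.sup kf, ?_, ?_⟩
  · intro k
    exact htY (hf ▸ Set.mem_range_self k)
  · intro z hz
    have := hcov hz
    simp only [Set.mem_iUnion] at this
    obtain ⟨x, hx, hzx⟩ := this
    refine ⟨kf x, Finset.le_sup (f := kf) (htfin.mem_toFinset.2 hx), ?_⟩
    rw [hkf x hx, dist_comm]
    exact hzx

/-- The pushforward of a measure under a composition `f ∘ J`, where `J` takes its values in a
finite set `S`, is a finite combination of Dirac masses. -/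
lemma map_comp_eq_sum_dirac {Ω ι β : Type*} [MeasurableSpace Ω] [MeasurableSpace ι]
    [MeasurableSingletonClass ι] [MeasurableSpace β] (π : Measure Ω) (J : Ω → ι)
    (hJ : Measurable J) (S : Finset ι) (hS : ∀ p, J p ∈ S) (f : ι → β) (hf : Measurable f) :
    π.map (f ∘ J) = ∑ a ∈ S, π (J ⁻¹' {a}) • Measure.dirac (f a) := by
  classical
  ext s hs
  rw [Measure.map_apply (hf.comp hJ) hs]
  have hpre : (f ∘ J) ⁻¹' s = ⋃ a ∈ S.filter (fun a => f a ∈ s), J ⁻¹' {a} := by
    ext p
    simp only [Set.mem_preimage, Function.comp_apply, Set.mem_iUnion, Finset.mem_filter,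
      Set.mem_singleton_iff, exists_prop]
    constructor
    · intro h
      exact ⟨J p, ⟨hS p, h⟩, rfl⟩
    · rintro ⟨a, ⟨-, ha⟩, rfl⟩
      exact ha
  rw [hpre, measure_biUnion_finset]
  · simp only [Measure.coe_finsetSum, Finset.sum_apply, Measure.smul_apply, smul_eq_mul]
    rw [Finset.sum_filter]
    refine Finset.sum_congr rfl fun a _ => ?_
    rw [Measure.dirac_apply' _ hs]
    by_cases h : f a ∈ s <;> simp [h]
  · intro a _ b _ hab
    refine Set.disjoint_iff.2 fun p hp => ?_
    exact hab (hp.1.symm.trans hp.2)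
  · intro a _
    exact hJ (measurableSet_singleton a)

/-- For a family of points shifted along a fixed nonzero direction by multiples `τ * o a` of
pairwise distinct offsets, only finitely many `τ` destroy injectivity on a finite set. -/
lemma bad_finite (g : ℕ × ℕ → E d) (u : E d) (hu : u ≠ 0) (o : ℕ × ℕ → ℝ)
    (ho : Function.Injective o) (Gr : Finset (ℕ × ℕ)) :
    {τ : ℝ | ¬ Set.InjOn (fun a : ℕ × ℕ => g a + (τ * o a) • u) Gr}.Finite := by
  classical
  have hsub : {τ : ℝ | ¬ Set.InjOn (fun a : ℕ × ℕ => g a + (τ * o a) • u) Gr} ⊆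
      ⋃ q ∈ (Gr.offDiag : Set ((ℕ × ℕ) × (ℕ × ℕ))),
        {τ : ℝ | g q.1 + (τ * o q.1) • u = g q.2 + (τ * o q.2) • u} := by
    intro τ hτ
    simp only [Set.mem_ofPred_eq, Set.InjOn] at hτ
    push Not at hτ
    obtain ⟨a, ha, b, hb, hab, hne⟩ := hτ
    simp only [Set.mem_iUnion, Set.mem_ofPred_eq]
    exact ⟨(a, b), by simpa [Finset.mem_offDiag] using ⟨ha, hb, hne⟩, hab⟩
  refine Set.Finite.subset (Set.Finite.biUnion (Finset.finite_toSet _) ?_) hsub
  intro q hq
  have hq' : q.1 ≠ q.2 := by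
    have := Finset.mem_offDiag.1 (Finset.mem_coe.1 hq)
    exact this.2.2
  have hoq : o q.1 ≠ o q.2 := fun h => hq' (ho h)
  refine Set.Subsingleton.finite ?_
  intro τ hτ τ' hτ'
  simp only [Set.mem_ofPred_eq] at hτ hτ'
  have h3 : ((τ - τ') * (o q.1 - o q.2)) • u = 0 := by
    have e1 : ((τ - τ') * (o q.1 - o q.2)) • u
        = (g q.1 + (τ * o q.1) • u) - (g q.2 + (τ * o q.2) • u)
          - ((g q.1 + (τ' * o q.1) • u) - (g q.2 + (τ' * o q.2) • u)) := by
      module
    rw [e1, hτ, hτ', sub_self, sub_self, sub_zero]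
  rcases smul_eq_zero.1 h3 with h | h
  · rcases mul_eq_zero.1 h with h | h
    · exact sub_eq_zero.1 h
    · exact absurd (sub_eq_zero.1 h) hoq
  · exact absurd h hu

/-- A common small shift parameter making both shifted families injective on a finite set. -/
lemma exists_tau (e : ℕ → E d) (u : E d) (hu : u ≠ 0) (o : ℕ × ℕ → ℝ)
    (ho : Function.Injective o) (Gr : Finset (ℕ × ℕ)) {η : ℝ} (hη : 0 < η) :
    ∃ τ : ℝ, 0 < τ ∧ τ ≤ η ∧
      Set.InjOn (fun a : ℕ × ℕ => e a.1 + (τ * o a) • u) Gr ∧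
      Set.InjOn (fun a : ℕ × ℕ => e a.2 + (τ * o a) • u) Gr := by
  have h1 := bad_finite (fun a : ℕ × ℕ => e a.1) u hu o ho Gr
  have h2 := bad_finite (fun a : ℕ × ℕ => e a.2) u hu o ho Gr
  obtain ⟨τ, hτ, hτn⟩ := (Set.Ioc_infinite hη).exists_notMem_finite (h1.union h2)
  refine ⟨τ, hτ.1, hτ.2, ?_, ?_⟩
  · by_contra h
    exact hτn (Or.inl h)
  · by_contra h
    exact hτn (Or.inr h)

/-- The coupling of `π.map pr` with the discrete measure obtained by pushing `π` forward under a
finitely valued map, at cost at most `ε`. -/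
lemma exists_coupling (π : Measure (E d × E d)) [IsProbabilityMeasure π]
    (pr : E d × E d → E d) (hpr : Measurable pr) (J : E d × E d → ℕ × ℕ) (hJ : Measurable J)
    (S : Finset (ℕ × ℕ)) (hS : ∀ p, J p ∈ S) (f : ℕ × ℕ → E d) {ε : ℝ}
    (h : ∀ᵐ p ∂π, ‖pr p - f (J p)‖ ≤ ε) :
    ∃ π₁ : Measure (E d × E d), π₁.map Prod.fst = π.map pr ∧
      π₁.map Prod.snd = ∑ a ∈ S, π (J ⁻¹' {a}) • Measure.dirac (f a) ∧
      ∫ p, ‖p.1 - p.2‖ ∂π₁ ≤ ε := by
  have hf : Measurable f := Measurable.of_discrete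
  have hG : Measurable (fun p : E d × E d => (pr p, f (J p))) := hpr.prodMk (hf.comp hJ)
  refine ⟨π.map (fun p : E d × E d => (pr p, f (J p))), ?_, ?_, ?_⟩
  · rw [Measure.map_map measurable_fst hG]
    rfl
  · rw [Measure.map_map measurable_snd hG]
    exact map_comp_eq_sum_dirac π J hJ S hS f hf
  · have hcont : Continuous (fun p : E d × E d => ‖p.1 - p.2‖) := by fun_prop
    rw [integral_map hG.aemeasurable hcont.aestronglyMeasurable]
    have hb : ∀ᵐ p ∂π, ‖‖pr p - f (J p)‖‖ ≤ ε := by
      filter_upwards [h] with p hp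
      rwa [norm_norm]
    have := norm_integral_le_of_norm_le_const hb
    rw [probReal_univ, mul_one] at this
    exact (le_abs_self _).trans (by simpa [Real.norm_eq_abs] using this)

end Approx

open Approx in
/-- Discretization of a coupling. -/
theorem approx_statement (d : ℕ) (hd : 1 ≤ d) : ApproxStatement d := by
  intro Y hY hYne μ ν hμ hν hμY hνY π hπ1 hπ2 ε hε
  classical
  have hπprob : IsProbabilityMeasure π := ⟨by
    have := Measure.map_apply (μ := π) measurable_fst MeasurableSet.univ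
    rw [hπ1, Set.preimage_univ, measure_univ] at this
    exact this.symm⟩
  -- a.e. both coordinates lie in `Y`
  have hYm : MeasurableSet Y := hY.isClosed.measurableSet
  have hae1 : ∀ᵐ p ∂π, p.1 ∈ Y := by
    have h0 : μ Yᶜ = 0 := (prob_compl_eq_zero_iff hYm).2 hμY
    rw [← hπ1, Measure.map_apply measurable_fst hYm.compl] at h0
    filter_upwards [measure_eq_zero_iff_ae_notMem.1 h0] with p hp
    simpa using hp
  have hae2 : ∀ᵐ p ∂π, p.2 ∈ Y := by
    have h0 : ν Yᶜ = 0 := (prob_compl_eq_zero_iff hYm).2 hνY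
    rw [← hπ2, Measure.map_apply measurable_snd hYm.compl] at h0
    filter_upwards [measure_eq_zero_iff_ae_notMem.1 h0] with p hp
    simpa using hp
  -- a bound for `Y`
  obtain ⟨R0, hR0⟩ := hY.isBounded.subset_closedBall (0 : E d)
  set R : ℝ := max R0 0 with hRdef
  have hR : 0 ≤ R := le_max_right _ _
  have hYR : ∀ z ∈ Y, ‖z‖ ≤ R := fun z hz => by
    have := hR0 hz
    rw [mem_closedBall_zero_iff] at this
    exact this.trans (le_max_left _ _)
  -- the mesh
  have h84 : 0 < 8 * R + 4 := by linarith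
  set η : ℝ := min 1 (ε / (8 * R + 4)) with hηdef
  have hη : 0 < η := lt_min one_pos (div_pos hε h84)
  have hη1 : η ≤ 1 := min_le_left _ _
  have hηε : η * (8 * R + 4) ≤ ε := by
    have : η ≤ ε / (8 * R + 4) := min_le_right _ _
    rwa [le_div_iff₀ h84] at this
  have h2η : 2 * η ≤ ε := by nlinarith
  -- the net and the quantizer
  obtain ⟨e, N, heY, hnet⟩ := exists_net hY hYne hη
  set idx : SimpleFunc (E d) ℕ := SimpleFunc.nearestPtInd e N with hidx
  have hidxN : ∀ z, idx z ≤ N := fun z => SimpleFunc.nearestPtInd_le e N z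
  have hidxη : ∀ z ∈ Y, dist (e (idx z)) z < η := by
    intro z hz
    obtain ⟨k, hk, hkz⟩ := hnet z hz
    have := SimpleFunc.edist_nearestPt_le e z hk
    rw [SimpleFunc.nearestPt, SimpleFunc.map_apply, edist_dist, edist_dist] at this
    exact ((ENNReal.ofReal_le_ofReal_iff dist_nonneg).1 this).trans_lt hkz
  set J : E d × E d → ℕ × ℕ := fun p => (idx p.1, idx p.2) with hJdef
  have hJ : Measurable J :=
    (idx.measurable.comp measurable_fst).prodMk (idx.measurable.comp measurable_snd)
  set S : Finset (ℕ × ℕ) := Finset.range (N + 1) ×ˢ Finset.range (N + 1) with hSdef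
  have hJS : ∀ p, J p ∈ S := fun p => by
    simp only [hSdef, hJdef, Finset.mem_product, Finset.mem_range]
    exact ⟨Nat.lt_succ_of_le (hidxN _), Nat.lt_succ_of_le (hidxN _)⟩
  set c : ℕ × ℕ → ℝ≥0∞ := fun a => π (J ⁻¹' {a}) with hcdef
  have hcfin : ∀ a, c a ≠ ∞ := fun a => measure_ne_top π _
  have hmapJ : π.map J = ∑ a ∈ S, c a • Measure.dirac a :=
    map_comp_eq_sum_dirac π J hJ S hJS (fun a => a) measurable_id
  have hsum : ∑ a ∈ S, c a = 1 := by
    have h2 := congrArg (fun m : Measure (ℕ × ℕ) => m Set.univ) hmapJ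
    simp only [Measure.coe_finsetSum, Finset.sum_apply, Measure.smul_apply, measure_univ,
      smul_eq_mul, mul_one] at h2
    rw [Measure.map_apply hJ MeasurableSet.univ, Set.preimage_univ, measure_univ] at h2
    exact h2.symm
  set P : Finset (ℕ × ℕ) := S.filter (fun a => c a ≠ 0) with hPdef
  have hsumP : ∑ a ∈ P, c a = 1 := by
    rw [hPdef, Finset.sum_filter_ne_zero]
    exact hsum
  have hPne : P.Nonempty := by
    by_contra h
    rw [Finset.not_nonempty_iff_eq_empty] at h
    rw [h, Finset.sum_empty] at hsumP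
    exact zero_ne_one hsumP
  obtain ⟨n, hn⟩ : ∃ n, P.card = n + 1 :=
    Nat.exists_eq_succ_of_ne_zero (Finset.card_ne_zero.2 hPne)
  let σ : Fin (n + 1) ≃ P := (P.equivFin.trans (finCongr hn)).symm
  have hσS : ∀ k, (σ k : ℕ × ℕ) ∈ S := fun k => (Finset.mem_filter.1 (σ k).2).1
  have hσc : ∀ k, c (σ k) ≠ 0 := fun k => (Finset.mem_filter.1 (σ k).2).2
  -- the direction and the offsets
  set u : E d := EuclideanSpace.single (⟨0, hd⟩ : Fin d) (1 : ℝ) with hudef
  have hu1 : ‖u‖ = 1 := by
    rw [hudef, PiLp.norm_single, norm_one]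
  have hu0 : u ≠ 0 := by
    intro h
    rw [h, norm_zero] at hu1
    exact zero_ne_one hu1
  set o : ℕ × ℕ → ℝ := fun a => 1 / ((Nat.pair a.1 a.2 : ℝ) + 1) with hodef
  have hopos : ∀ a : ℕ × ℕ, 0 < (Nat.pair a.1 a.2 : ℝ) + 1 := fun a => by positivity
  have ho_inj : Function.Injective o := by
    intro a b hab
    simp only [hodef, one_div, inv_inj] at hab
    have hab' : Nat.pair a.1 a.2 = Nat.pair b.1 b.2 := by
      exact_mod_cast add_right_cancel hab
    have := Nat.pair_eq_pair.1 hab'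
    exact Prod.ext this.1 this.2
  have ho0 : ∀ a, 0 ≤ o a := fun a => by
    simp only [hodef]
    exact div_nonneg zero_le_one (hopos a).le
  have ho1 : ∀ a, o a ≤ 1 := fun a => by
    simp only [hodef]
    rw [div_le_one (hopos a)]
    have : (0 : ℝ) ≤ (Nat.pair a.1 a.2 : ℝ) := Nat.cast_nonneg _
    linarith
  obtain ⟨τ, hτ0, hτη, hinj1, hinj2⟩ := exists_tau e u hu0 o ho_inj S hη
  have hoff : ∀ a, ‖(τ * o a) • u‖ ≤ η := by
    intro a
    rw [norm_smul, hu1, mul_one, Real.norm_eq_abs, abs_of_nonneg (mul_nonneg hτ0.le (ho0 a))]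
    calc τ * o a ≤ τ * 1 := mul_le_mul_of_nonneg_left (ho1 a) hτ0.le
      _ = τ := mul_one _
      _ ≤ η := hτη
  set yh : ℕ × ℕ → E d := fun a => e a.1 + (τ * o a) • u with hyh
  set yh' : ℕ × ℕ → E d := fun a => e a.2 + (τ * o a) • u with hyh'
  -- reindexing sums over `P` by `Fin (n + 1)`
  have hre : ∀ {M : Type} [AddCommMonoid M] (F : ℕ × ℕ → M),
      ∑ k : Fin (n + 1), F (σ k) = ∑ a ∈ P, F a := by
    intro M _ F
    rw [← Finset.sum_coe_sort P F]
    exact Equiv.sum_comp σ (fun x : P => F x)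
  have hmeas : ∀ f : ℕ × ℕ → E d,
      ∑ a ∈ S, c a • Measure.dirac (f a)
        = ∑ k : Fin (n + 1), ENNReal.ofReal ((c (σ k)).toReal) • Measure.dirac (f (σ k)) := by
    intro f
    have h1 : ∑ k : Fin (n + 1), ENNReal.ofReal ((c (σ k)).toReal) • Measure.dirac (f (σ k))
        = ∑ k : Fin (n + 1), c (σ k) • Measure.dirac (f (σ k)) := by
      refine Finset.sum_congr rfl fun k _ => ?_
      rw [ENNReal.ofReal_toReal (hcfin _)]
    rw [h1, hre (fun a => c a • Measure.dirac (f a)), hPdef]
    symm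
    refine Finset.sum_filter_of_ne fun a _ ha => ?_
    intro h0
    exact ha (by rw [h0, zero_smul])
  -- a.e. estimates
  have hq1 : ∀ᵐ p ∂π, ‖p.1 - yh (J p)‖ ≤ ε := by
    filter_upwards [hae1] with p hp
    have h1 : p.1 - yh (J p) = (p.1 - e (idx p.1)) - (τ * o (J p)) • u := by
      simp only [hyh, hJdef]
      abel
    have h2 : ‖p.1 - e (idx p.1)‖ < η := by
      rw [← dist_eq_norm, dist_comm]
      exact hidxη _ hp
    rw [h1]
    have := norm_sub_le (p.1 - e (idx p.1)) ((τ * o (J p)) • u)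
    have := hoff (J p)
    linarith
  have hq2 : ∀ᵐ p ∂π, ‖p.2 - yh' (J p)‖ ≤ ε := by
    filter_upwards [hae2] with p hp
    have h1 : p.2 - yh' (J p) = (p.2 - e (idx p.2)) - (τ * o (J p)) • u := by
      simp only [hyh', hJdef]
      abel
    have h2 : ‖p.2 - e (idx p.2)‖ < η := by
      rw [← dist_eq_norm, dist_comm]
      exact hidxη _ hp
    rw [h1]
    have := norm_sub_le (p.2 - e (idx p.2)) ((τ * o (J p)) • u)
    have := hoff (J p)
    linarith
  refine ⟨n, fun k => (c (σ k)).toReal, fun k => yh (σ k), fun k => yh' (σ k),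
    ?_, ?_, ?_, ?_, ?_, ?_, ?_, ?_, ?_⟩
  · intro k
    exact ENNReal.toReal_pos (hσc k) (hcfin _)
  · rw [hre (fun a => (c a).toReal), ← ENNReal.toReal_sum (fun a _ => hcfin a), hsumP]
    simp
  · intro k l hkl
    have := hinj1 (Finset.mem_coe.2 (hσS k)) (Finset.mem_coe.2 (hσS l)) hkl
    exact σ.injective (Subtype.ext this)
  · intro k l hkl
    have := hinj2 (Finset.mem_coe.2 (hσS k)) (Finset.mem_coe.2 (hσS l)) hkl
    exact σ.injective (Subtype.ext this)
  · intro k
    refine ⟨e (σ k : ℕ × ℕ).1, heY _, ?_⟩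
    have : yh (σ k) - e (σ k : ℕ × ℕ).1 = (τ * o (σ k)) • u := by
      simp only [hyh]
      abel
    rw [this]
    have := hoff (σ k)
    linarith
  · intro k
    refine ⟨e (σ k : ℕ × ℕ).2, heY _, ?_⟩
    have : yh' (σ k) - e (σ k : ℕ × ℕ).2 = (τ * o (σ k)) • u := by
      simp only [hyh']
      abel
    rw [this]
    have := hoff (σ k)
    linarith
  · obtain ⟨π₁, h1, h2, h3⟩ := exists_coupling π Prod.fst measurable_fst J hJ S hJS yh hq1
    exact ⟨π₁, h1.trans hπ1, h2.trans (hmeas yh), h3⟩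
  · obtain ⟨π₂, h1, h2, h3⟩ := exists_coupling π Prod.snd measurable_snd J hJ S hJS yh' hq2
    exact ⟨π₂, h1.trans hπ2, h2.trans (hmeas yh'), h3⟩
  · -- the cost
    set G : ℕ × ℕ → ℝ := fun a => ‖e a.2 - e a.1‖ ^ 2 with hG
    have hGb : ∀ a, ‖G a‖ ≤ (2 * R) ^ 2 := by
      intro a
      have h1 : ‖e a.2 - e a.1‖ ≤ 2 * R := by
        have := norm_sub_le (e a.2) (e a.1)
        have := hYR _ (heY a.2)
        have := hYR _ (heY a.1)
        linarith
      rw [hG, Real.norm_eq_abs, abs_of_nonneg (by positivity)]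
      exact pow_le_pow_left₀ (norm_nonneg _) h1 2
    have hterm : ∀ a : ℕ × ℕ, yh' a - yh a = e a.2 - e a.1 := by
      intro a
      simp only [hyh, hyh']
      abel
    have hL : ∑ k : Fin (n + 1), (c (σ k)).toReal * ‖yh' (σ k) - yh (σ k)‖ ^ 2
        = ∫ p, G (J p) ∂π := by
      have hGm : Measurable G := Measurable.of_discrete
      have e1 : ∫ p, G (J p) ∂π = ∫ a, G a ∂(π.map J) :=
        (integral_map hJ.aemeasurable hGm.aestronglyMeasurable).symm
      rw [e1, hmapJ, integral_finsetSum_measure]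
      · simp only [integral_smul_measure, integral_dirac, smul_eq_mul]
        rw [hre (fun a => (c a).toReal * ‖yh' a - yh a‖ ^ 2), hPdef]
        rw [Finset.sum_filter_of_ne]
        · refine Finset.sum_congr rfl fun a _ => ?_
          rw [hterm a]
        · intro a _ ha h0
          exact ha (by rw [h0]; simp)
      · intro a _
        refine Integrable.smul_measure ?_ (hcfin a)
        exact integrable_dirac (by simp)
    rw [hL]
    have hcont : Continuous (fun p : E d × E d => ‖p.1 - p.2‖ ^ 2) := by fun_prop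
    have hpt : ∀ᵐ p ∂π, G (J p) ≤ ‖p.1 - p.2‖ ^ 2 + ε := by
      filter_upwards [hae1, hae2] with p hp1 hp2
      have h1 : ‖p.1 - e (idx p.1)‖ < η := by
        rw [← dist_eq_norm, dist_comm]
        exact hidxη _ hp1
      have h2 : ‖e (idx p.2) - p.2‖ < η := by
        rw [← dist_eq_norm]
        exact hidxη _ hp2
      have h3 : ‖e (idx p.2) - e (idx p.1)‖ ≤ ‖p.1 - p.2‖ + 2 * η := by
        have e3 : e (idx p.2) - e (idx p.1)
            = (e (idx p.2) - p.2) + ((p.2 - p.1) + (p.1 - e (idx p.1))) := by abel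
        rw [e3]
        have := norm_add_le (e (idx p.2) - p.2) ((p.2 - p.1) + (p.1 - e (idx p.1)))
        have := norm_add_le (p.2 - p.1) (p.1 - e (idx p.1))
        have := norm_sub_rev p.2 p.1
        linarith
      have h4 : ‖p.1 - p.2‖ ≤ 2 * R := by
        have := norm_sub_le p.1 p.2
        have := hYR _ hp1
        have := hYR _ hp2
        linarith
      have h5 : 0 ≤ ‖p.1 - p.2‖ := norm_nonneg _
      have h6 : 0 ≤ ‖e (idx p.2) - e (idx p.1)‖ := norm_nonneg _
      simp only [hG, hJdef]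
      nlinarith
    have hint1 : Integrable (fun p => G (J p)) π := by
      refine Integrable.of_bound ((Measurable.of_discrete (f := G)).comp hJ).aestronglyMeasurable
        ((2 * R) ^ 2) (Filter.Eventually.of_forall fun p => hGb _)
    have hint2 : Integrable (fun p : E d × E d => ‖p.1 - p.2‖ ^ 2) π := by
      refine Integrable.of_bound hcont.aestronglyMeasurable ((2 * R) ^ 2) ?_
      filter_upwards [hae1, hae2] with p hp1 hp2
      have h4 : ‖p.1 - p.2‖ ≤ 2 * R := by
        have := norm_sub_le p.1 p.2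
        have := hYR _ hp1
        have := hYR _ hp2
        linarith
      rw [Real.norm_eq_abs, abs_of_nonneg (by positivity)]
      exact pow_le_pow_left₀ (norm_nonneg _) h4 2
    calc ∫ p, G (J p) ∂π ≤ ∫ p, (‖p.1 - p.2‖ ^ 2 + ε) ∂π :=
          integral_mono_ae hint1 (hint2.add (integrable_const ε)) hpt
      _ = ∫ p, ‖p.1 - p.2‖ ^ 2 ∂π + ε := by
          rw [integral_add hint2 (integrable_const ε)]
          simp

end Vale.Agent.Lib.P074
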